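import Vale.Agent.P011IS.Spec
import Vale.Agent.P011L.Defs
import Vale.Agent.P011.H271.Sep

/-!
Separable extensions of global fields.
-/

set_option autoImplicit false
set_option linter.all false

namespace Vale.Agent.P011IS

open Polynomial Vale.Agent.P011L

variable {k F : Type} [Field k] [Field F] [Algebra k F]

/-- `k` is generated by one element over the `p`-th powers -/
theorem gen_of (hk : Glob k) {p : ℕ} (hp : p.Prime) [CharP k p] [ExpChar k p] :
    ∃ t : k, ∀ x : k, ∃ g : k[X], eval₂ (frobenius k p) t g = x := by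
  rcases hk with hk | ⟨E, _, _, _, _⟩
  · exact absurd (CharP.eq k ‹CharP k p› (CharP.ofCharZero k)) hp.ne_zero
  obtain ⟨φ, h1, h2⟩ := P011.H271.exists_separating E k
  let R := (eval₂RingHom (frobenius k p) (φ RatFunc.X)).range
  have r1 : ∀ x : k, x ^ p ∈ R := fun x => ⟨C x, by simp [frobenius_def]⟩
  have r2 : ∀ g : E[X], φ (algebraMap _ _ g) ∈ R := fun g => by
    induction g using Polynomial.induction_on with
    | C c =>
      have := Fintype.ofFinite E
      have : CharP E p := ((φ.comp (algebraMap E _)).charP_iff_charP p).2 inferInstance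
      have : ExpChar E p := .prime hp
      obtain ⟨d, rfl⟩ := surjective_frobenius E p c
      rw [frobenius_def, map_pow, map_pow, map_pow]
      exact r1 _
    | add a b ha hb => rw [map_add, map_add]; exact R.add_mem ha hb
    | monomial n c h =>
      rw [pow_succ, ← mul_assoc, map_mul, map_mul]
      exact R.mul_mem h ⟨X, by simp⟩
  have r3 : ∀ r, φ r ∈ R := fun r => by
    obtain ⟨q, rfl⟩ := Nat.exists_eq_succ_of_ne_zero hp.ne_zero
    have d0 : φ (algebraMap _ _ r.denom) ≠ 0 :=
      (_root_.map_ne_zero φ).2 (RatFunc.algebraMap_ne_zero r.denom_ne_zero)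
    have : φ r = φ (algebraMap _ _ (r.num * r.denom ^ q)) * (φ (algebraMap _ _ r.denom))⁻¹ ^ (q + 1) := by
      conv_lhs => rw [← RatFunc.num_div_denom r]
      rw [map_div₀, map_mul, map_mul, map_pow, map_pow]
      field_simp
      rw [div_pow, one_pow]
      field_simp
      ring
    rw [this]
    exact R.mul_mem (r2 _) (r1 _)
  refine ⟨φ RatFunc.X, fun x => ?_⟩
  letI := φ.toAlgebra
  have : CharP (RatFunc E) p := (φ.charP_iff_charP p).2 inferInstance
  have : ExpChar (RatFunc E) p := .prime hp
  have h3 := Field.span_map_pow_expChar_pow_eq_top_of_isSeparable (F := RatFunc E) (E := k) p 1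
    (v := id) (by simp)
  have hx : x ∈ Submodule.span (RatFunc E) (Set.range (id · ^ p ^ 1 : k → k)) := h3 ▸ trivial
  show x ∈ R
  induction hx using Submodule.span_induction with
  | mem _ h => obtain ⟨y, rfl⟩ := h; simpa using r1 y
  | zero => exact R.zero_mem
  | add _ _ _ _ a b => exact R.add_mem a b
  | smul c _ _ a => exact R.mul_mem (r3 c) a

/-- An extension of a global field in which some element of `k` is not a `p`-th power is
separable. -/
theorem sepx_of (hk : Glob k)
    (h : ∀ p : ℕ, p.Prime → CharP k p → ∃ π : k, ∀ b : F, b ^ p ≠ algebraMap k F π) :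
    Sepx k F := fun p hp _ s hs => by
  have : ExpChar k p := .prime hp
  have : CharP F p := charP_of_injective_algebraMap (algebraMap k F).injective p
  have : ExpChar F p := .prime hp
  obtain ⟨t, ht⟩ := gen_of hk hp
  obtain ⟨π, hπ⟩ := h p hp ‹_›
  have e1 : ∀ g : k[X], eval₂ (frobenius F p) (algebraMap k F t) (g.map (algebraMap k F)) =
      algebraMap k F (eval₂ (frobenius k p) t g) := fun g => by
    rw [eval₂_map, hom_eval₂]
    congr 1
    ext x
    simp [frobenius_def]
  have t0 : ∀ b : F, b ^ p ≠ algebraMap k F t := fun b c => by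
    obtain ⟨g, hg⟩ := ht π
    refine hπ (eval b (g.map (algebraMap k F))) ?_
    rw [← hg, ← e1, ← c, ← frobenius_def, ← frobenius_def, ← eval₂_at_apply]
  have irr := X_pow_sub_C_irreducible_of_prime hp t0
  have z : ∀ G : F[X], G.degree < p → eval₂ (frobenius F p) (algebraMap k F t) G = 0 → G = 0 :=
    fun G d c => by_contra fun o => by
      obtain ⟨u, v, e⟩ := irr.coprime_iff_not_dvd.2 fun w => (degree_le_of_dvd w o).not_gt
        (by rwa [degree_X_pow_sub_C hp.pos])
      have := congrArg (eval₂ (frobenius F p) (algebraMap k F t)) e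
      simp [eval₂_add, eval₂_mul, eval₂_sub, c, frobenius_def] at this
  have mo : (X ^ p - C t).Monic := monic_X_pow_sub_C t hp.ne_zero
  have ht' : ∀ x : k, ∃ g : k[X], g.degree < p ∧ eval₂ (frobenius k p) t g = x := fun x => by
    obtain ⟨g, hg⟩ := ht x
    refine ⟨g %ₘ (X ^ p - C t), by
      simpa only [degree_X_pow_sub_C hp.pos] using degree_modByMonic_lt g mo, ?_⟩
    rw [← hg]
    exact eval₂_modByMonic_eq_self_of_root (by simp [eval₂_sub, frobenius_def])
  choose g g1 g2 using ht'
  rw [linearIndepOn_finset_iff] at hs ⊢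
  intro c hc x hx
  have G0 := z (∑ y ∈ s, C y * (g (c y)).map (algebraMap k F))
    ((degree_sum_le _ _).trans_lt ((Finset.sup_lt_iff (WithBot.bot_lt_coe p)).2 fun y _ => by
      rw [← smul_eq_C_mul]
      exact (degree_smul_le _ _).trans_lt (degree_map_le.trans_lt (g1 _)))) (by
    rw [eval₂_finset_sum, ← hc]
    refine Finset.sum_congr rfl fun y _ => ?_
    rw [eval₂_mul, eval₂_C, e1, g2, Algebra.smul_def, mul_comm, frobenius_def])
  have : g (c x) = 0 := Polynomial.ext fun i => hs (fun y => (g (c y)).coeff i) (by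
    have := congrArg (coeff · i) G0
    simp only [finset_sum_coeff, coeff_C_mul, coeff_map, coeff_zero] at this
    rw [← this]
    exact Finset.sum_congr rfl fun y _ => by rw [Algebra.smul_def, mul_comm]; rfl) x hx
  rw [← g2 (c x), this, eval₂_zero]

end Vale.Agent.P011IS
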