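import Vale.Agent.P011IS.Glob

/-!
Finite separable extensions of the completions of a global field are separable over it.
-/

set_option autoImplicit false
set_option linter.all false

namespace Vale.Agent.P011IS

open Vale.Agent.P011L

variable {k L F : Type} [Field k] [NontriviallyNormedField L] [ProperSpace L] [IsUltrametricDist L]
  [Algebra k L] [Field F] [Algebra L F] [Algebra k F] [IsScalarTower k L F]

/-- a uniformizer -/
theorem ex_unif (L : Type) [NontriviallyNormedField L] [ProperSpace L] [IsUltrametricDist L] :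
    ∃ x : L, x ≠ 0 ∧ ‖x‖ < 1 ∧ ∀ y : L, ‖y‖ < 1 → ‖y‖ ≤ ‖x‖ := by
  have c : IsCompact (Metric.ball (0 : L) 1) :=
    (isCompact_closedBall (0 : L) 1).of_isClosed_subset (IsUltrametricDist.isClosed_ball 0 1)
      Metric.ball_subset_closedBall
  obtain ⟨x, hx, h⟩ := c.exists_isMaxOn ⟨0, by simp⟩ continuous_norm.continuousOn
  obtain ⟨z, z0, z1⟩ := NormedField.exists_norm_lt_one L
  have h' : ∀ y : L, ‖y‖ < 1 → ‖y‖ ≤ ‖x‖ := fun y hy => h (by simpa using hy)
  exact ⟨x, norm_pos_iff.1 (z0.trans_le (h' z z1)), by simpa using hx, h'⟩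

theorem not_pow (hd : DenseRange (algebraMap k L)) [Algebra.IsSeparable L F] (p : ℕ) (hp : p.Prime)
    (_ : CharP k p) : ∃ π : k, ∀ b : F, b ^ p ≠ algebraMap k F π := by
  obtain ⟨x, x0, x1, hx⟩ := ex_unif L
  obtain ⟨π, hπ⟩ := hd.exists_dist_lt x (norm_pos_iff.2 x0)
  have e : ‖algebraMap k L π‖ = ‖x‖ := by
    rw [dist_eq_norm] at hπ
    have := IsUltrametricDist.norm_add_eq_max_of_norm_ne_norm
      (x := x) (y := -(x - algebraMap k L π)) (by rw [norm_neg]; exact hπ.ne')
    rwa [show x + -(x - algebraMap k L π) = algebraMap k L π by ring, norm_neg,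
      max_eq_left hπ.le] at this
  refine ⟨π, fun b hb => ?_⟩
  have : CharP L p := charP_of_injective_algebraMap (algebraMap k L).injective p
  have : ExpChar L p := .prime hp
  have h1 : b ∈ perfectClosure L F := (mem_perfectClosure_iff_pow_mem p).2
    ⟨1, algebraMap k L π, by rw [pow_one, hb, ← IsScalarTower.algebraMap_apply]⟩
  rw [perfectClosure.eq_bot_of_isSeparable] at h1
  obtain ⟨c, rfl⟩ := h1
  have h2 : c ^ p = algebraMap k L π := (algebraMap L F).injective (by
    rw [map_pow, ← IsScalarTower.algebraMap_apply]; exact hb)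
  have h3 : ‖c‖ ^ p = ‖x‖ := by rw [← norm_pow, h2, e]
  have h4 : ‖c‖ < 1 := by_contra fun o => (h3 ▸ one_le_pow₀ (not_lt.1 o)).not_gt x1
  have h5 : 0 < ‖c‖ := norm_pos_iff.2 fun o => x0 (norm_eq_zero.1 (by
    rw [← h3, o, norm_zero, zero_pow hp.ne_zero]))
  exact (hx c h4).not_gt (h3 ▸ pow_lt_self_of_lt_one₀ h5 h4 hp.one_lt)

/-- **A finite separable extension of a completion of a global field `k` is separable over `k`.** -/
theorem sepx_loc (hk : Glob k) (hd : DenseRange (algebraMap k L)) [Algebra.IsSeparable L F] :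
    Sepx k F := sepx_of hk (not_pow hd)

end Vale.Agent.P011IS
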