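import Mathlib.FieldTheory.SeparablyGenerated
import Mathlib.FieldTheory.IsSepClosed
import Mathlib.Algebra.Polynomial.CancelLeads
import Mathlib.Algebra.MvPolynomial.Funext
import Mathlib.FieldTheory.KummerPolynomial

/-!
Specialisation of finitely many elements of a separable extension to a separably closed field.
-/

set_option autoImplicit false
set_option linter.all false

namespace Vale.Agent.P011IS

open Polynomial

section step

variable {B F K : Type} [CommRing B] [Field F] [Algebra B F] [Field K]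

theorem pdiv {θ : F} {m : B[X]} (hm : aeval θ m = 0) (m0 : 0 < m.natDegree)
    (hmin : ∀ g : B[X], aeval θ g = 0 → g.natDegree < m.natDegree → g = 0) (g : B[X])
    (hg : aeval θ g = 0) : ∃ (N : ℕ) (h : B[X]), C m.leadingCoeff ^ N * g = m * h := by
  generalize e : g.natDegree = d
  induction d using Nat.strong_induction_on generalizing g with | _ d ih => ?_
  by_cases c : g.natDegree < m.natDegree
  · exact ⟨0, 0, by rw [hmin g hg c, mul_zero, mul_zero]⟩
  rw [not_lt] at c
  have h1 := natDegree_cancelLeads_lt_of_natDegree_le_natDegree c (m0.trans_le c)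
  have h2 : m.cancelLeads g =
      C m.leadingCoeff * g - C g.leadingCoeff * X ^ (g.natDegree - m.natDegree) * m := by
    rw [cancelLeads, Nat.sub_eq_zero_of_le c, pow_zero, mul_one]
  obtain ⟨N, h, e'⟩ := ih _ (e ▸ h1) (m.cancelLeads g) (by simp [h2, hg, hm]) rfl
  refine ⟨N + 1, h + C m.leadingCoeff ^ N * (C g.leadingCoeff * X ^ (g.natDegree - m.natDegree)), ?_⟩
  rw [h2] at e'
  linear_combination e'

/-- a simple root in the algebraic closure lies in the separably closed field -/
theorem root_of [IsSepClosed K] (P : K[X]) (h0 : 0 < P.natDegree)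
    (h : ∀ y : AlgebraicClosure K, aeval y P = 0 → aeval y P.derivative ≠ 0) :
    ∃ y : K, P.eval y = 0 := by
  obtain ⟨y, hy⟩ := IsAlgClosed.exists_aeval_eq_zero (AlgebraicClosure K) P
    (natDegree_pos_iff_degree_pos.1 h0).ne'
  obtain ⟨r, hr⟩ := minpoly.dvd K y hy
  have hi := minpoly.irreducible (Algebra.IsIntegral.isIntegral (R := K) y)
  have hs : (minpoly K y).Separable := (separable_iff_derivative_ne_zero hi).2 fun c => h y hy (by
    rw [hr, derivative_mul, c, zero_mul, zero_add, map_mul, minpoly.aeval, zero_mul])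
  obtain ⟨z, hz⟩ := IsSepClosed.exists_root _ (minpoly.degree_pos
    (Algebra.IsIntegral.isIntegral (R := K) y)).ne' hs
  exact ⟨z, by rw [hr, eval_mul, hz.eq_zero, zero_mul]⟩

theorem step [IsSepClosed K] (hi : Function.Injective (algebraMap B F)) {θ : F} {M : B[X]}
    (h1 : aeval θ M = 0) (h2 : aeval θ M.derivative ≠ 0) (f : B[X]) (hf : aeval θ f ≠ 0) :
    ∃ e : B, e ≠ 0 ∧ ∀ φ : B →+* K, φ e ≠ 0 → ∃ y : K,
      (∀ g : B[X], aeval θ g = 0 → eval₂ φ y g = 0) ∧ eval₂ φ y f ≠ 0 := by
  classical
  have : IsDomain B := hi.isDomain _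
  have M0 : M ≠ 0 := fun c => h2 (by simp [c])
  have ex : ∃ d, ∃ m : B[X], m ≠ 0 ∧ aeval θ m = 0 ∧ m.natDegree = d := ⟨_, M, M0, h1, rfl⟩
  obtain ⟨m, a0, a1, a2⟩ := Nat.find_spec ex
  have hmin : ∀ g : B[X], aeval θ g = 0 → g.natDegree < m.natDegree → g = 0 := fun g c d =>
    by_contra fun o => Nat.find_min ex (a2 ▸ d) ⟨g, o, c, rfl⟩
  have m0 : 0 < m.natDegree := Nat.pos_of_ne_zero fun c => a0 (by
    rw [eq_C_of_natDegree_eq_zero c] at a1 ⊢
    rw [aeval_C] at a1
    rw [hi (a1.trans (map_zero _).symm), map_zero])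
  have l0 : m.leadingCoeff ≠ 0 := leadingCoeff_ne_zero.2 a0
  have h3 : aeval θ m.derivative ≠ 0 := fun c => by
    obtain ⟨N, h, e⟩ := pdiv a1 m0 hmin M h1
    have := congrArg (fun p => aeval θ (derivative p)) e
    simp only [← C_pow, derivative_mul, derivative_C, map_add, map_mul, c, a1, zero_mul, add_zero,
      aeval_C, map_zero, zero_add] at this
    exact mul_ne_zero (fun o => pow_ne_zero N l0 (hi (o.trans (map_zero _).symm))) h2 this
  have alg : IsAlgebraic B (aeval θ (f * m.derivative)) :=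
    (Algebra.isAlgebraic_adjoin_singleton_iff.2 ⟨m, a0, a1⟩) _ (aeval_mem_adjoin_singleton _ _)
  obtain ⟨t, ht, e, e0, he⟩ := alg.exists_nonzero_eq_adjoin_mul
    (mem_nonZeroDivisors_of_ne_zero (by rw [map_mul]; exact mul_ne_zero hf h3))
  have : t ∈ Algebra.adjoin B {θ} :=
    Algebra.adjoin_le (Set.singleton_subset_iff.2 (aeval_mem_adjoin_singleton _ _)) ht
  rw [Algebra.adjoin_singleton_eq_range_aeval] at this
  obtain ⟨V, rfl⟩ := this
  have key : ∀ (L : Type) [Field L] (ψ : B →+* L), ψ (e * m.leadingCoeff) ≠ 0 → ∀ y : L,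
      eval₂ ψ y m = 0 → (∀ g : B[X], aeval θ g = 0 → eval₂ ψ y g = 0) ∧ eval₂ ψ y f ≠ 0 ∧
        eval₂ ψ y m.derivative ≠ 0 := fun L _ ψ c y hy => by
    rw [map_mul] at c
    have k1 : ∀ g : B[X], aeval θ g = 0 → eval₂ ψ y g = 0 := fun g hg => by
      obtain ⟨N, h, e⟩ := pdiv a1 m0 hmin g hg
      have := congrArg (eval₂ ψ y) e
      rw [eval₂_mul, eval₂_mul, hy, zero_mul, eval₂_pow, eval₂_C] at this
      exact (mul_eq_zero.1 this).resolve_left (pow_ne_zero _ (right_ne_zero_of_mul c))
    have k2 := k1 (f * m.derivative * V - C e) (by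
      rw [map_sub, map_mul, aeval_C, sub_eq_zero]; exact he)
    rw [eval₂_sub, eval₂_mul, eval₂_mul, eval₂_C, sub_eq_zero] at k2
    have k3 := left_ne_zero_of_mul (k2 ▸ left_ne_zero_of_mul c)
    exact ⟨k1, left_ne_zero_of_mul k3, right_ne_zero_of_mul k3⟩
  refine ⟨e * m.leadingCoeff, mul_ne_zero e0 l0, fun φ hφ => ?_⟩
  obtain ⟨y, hy⟩ := root_of (m.map φ) (by
    rw [natDegree_map_of_leadingCoeff_ne_zero _ (by
      rw [map_mul] at hφ; exact right_ne_zero_of_mul hφ)]; exact m0) fun y hy => by
    have := (key _ ((algebraMap K (AlgebraicClosure K)).comp φ) (by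
      rw [RingHom.comp_apply]; exact (_root_.map_ne_zero _).2 hφ) y (by
        rwa [aeval_def, eval₂_map] at hy)).2.2
    rwa [derivative_map, aeval_def, eval₂_map]
  rw [eval_map] at hy
  exact ⟨y, (key K φ hφ y hy).1, (key K φ hφ y hy).2.1⟩

end step

section good

variable {k F : Type} (K : Type) [Field k] [Field F] [Algebra k F] [Field K] [Algebra k K]

/-- the points with values in `K` are dense -/
def Good (B : Subalgebra k F) : Prop := ∀ b : B, b ≠ 0 → ∃ φ : B →ₐ[k] K, φ b ≠ 0

variable {K}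

theorem Good.step [IsSepClosed K] {B : Subalgebra k F} (h : Good K B) {θ : F} {M : B[X]}
    (h1 : aeval θ M = 0) (h2 : aeval θ M.derivative ≠ 0) :
    Good K ((aeval θ : B[X] →ₐ[B] F).range.restrictScalars k) := by
  rintro ⟨_, f, rfl⟩ hb
  obtain ⟨e, e0, he⟩ := P011IS.step (K := K) Subtype.val_injective h1 h2 f
    fun c => hb (Subtype.ext c)
  obtain ⟨φ, hφ⟩ := h e e0
  obtain ⟨y, y1, y2⟩ := he φ.toRingHom hφ
  let π : B[X] →+* ((aeval θ : B[X] →ₐ[B] F).range.restrictScalars k) :=
    (aeval θ : B[X] →ₐ[B] F).toRingHom.codRestrict _ fun g => ⟨g, rfl⟩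
  have hπ : Function.Surjective π := fun ⟨_, g, c⟩ => ⟨g, Subtype.ext c⟩
  let ψ := π.liftOfSurjective hπ ⟨eval₂RingHom φ.toRingHom y, fun g c =>
    y1 g (congrArg Subtype.val c)⟩
  have e1 : ∀ g, ψ (π g) = eval₂ φ.toRingHom y g := fun g =>
    π.liftOfSurjective_comp_apply hπ _ g
  refine ⟨⟨ψ, fun c => ?_⟩, (e1 f).trans_ne y2⟩
  have : algebraMap k _ c = π (C (algebraMap k B c)) := Subtype.ext (by simp [π])
  exact (congrArg ψ this).trans ((e1 _).trans ((eval₂_C _ _).trans (φ.commutes c)))

theorem good_ind [Infinite K] {ι : Type} {s : ι → F} (hs : AlgebraicIndependent k s) :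
    Good K (Algebra.adjoin k (Set.range s)) := fun b hb => by
  have : MvPolynomial.map (algebraMap k K) (hs.aevalEquiv.symm b) ≠ 0 := fun c => hb (by
    have := MvPolynomial.map_injective _ (algebraMap k K).injective (c.trans (map_zero _).symm)
    simpa using this)
  obtain ⟨x, hx⟩ : ∃ x, MvPolynomial.eval x (MvPolynomial.map (algebraMap k K)
      (hs.aevalEquiv.symm b)) ≠ 0 :=
    by_contra fun c => this (MvPolynomial.funext fun x => by
      rw [map_zero]; exact by_contra fun d => c ⟨x, d⟩)
  refine ⟨(MvPolynomial.aeval x).comp hs.aevalEquiv.symm.toAlgHom, ?_⟩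
  rwa [MvPolynomial.eval_map, ← MvPolynomial.aeval_def] at hx

open scoped IntermediateField.algebraAdjoinAdjoin in
theorem simple_of {S : Set F} {θ : F} (h : IsSeparable (IntermediateField.adjoin k S) θ)
    {B : Subalgebra k F} (hB : S ⊆ B) :
    ∃ M : B[X], aeval θ M = 0 ∧ aeval θ M.derivative ≠ 0 := by
  obtain ⟨c, c0, hc⟩ := IsLocalization.integerNormalization_spec
    (nonZeroDivisors (Algebra.adjoin k S)) (minpoly (IntermediateField.adjoin k S) θ)
  let j : Algebra.adjoin k S →ₐ[k] B := Subalgebra.inclusion (Algebra.adjoin_le hB)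
  have e : ∀ p : (Algebra.adjoin k S)[X], aeval θ (p.map j.toRingHom) =
      aeval θ (p.map (algebraMap _ (IntermediateField.adjoin k S))) := fun p => by
    rw [aeval_def, aeval_def, eval₂_map, eval₂_map]
    rfl
  refine ⟨(IsLocalization.integerNormalization (nonZeroDivisors (Algebra.adjoin k S)) (minpoly 
    (IntermediateField.adjoin k S) θ)).map j.toRingHom, ?_, ?_⟩
  · rw [e, hc, Algebra.smul_def, map_mul, minpoly.aeval, mul_zero]
  · rw [derivative_map, e, ← derivative_map, hc, derivative_smul, Algebra.smul_def, map_mul]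
    refine mul_ne_zero ?_ (h.aeval_derivative_ne_zero (minpoly.aeval _ _))
    have : (c : F) ≠ 0 := fun o => nonZeroDivisors.ne_zero c0 (Subtype.ext o)
    simpa [Polynomial.algebraMap_apply] using this

theorem inf_of (K : Type) [Field K] [IsSepClosed K] : Infinite K := by
  cases finite_or_infinite K
  · have : IsAlgClosed K := inferInstance
    infer_instance
  · assumption

theorem good_fin [IsSepClosed K] {ι : Type} {s : ι → F} (hs : AlgebraicIndependent k s)
    (T : Finset F) (hT : ∀ θ ∈ T, IsSeparable (IntermediateField.adjoin k (Set.range s)) θ) :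
    ∃ B : Subalgebra k F, Good K B ∧ Set.range s ⊆ B ∧ (T : Set F) ⊆ B := by
  classical
  have := inf_of K
  induction T using Finset.induction_on with
  | empty => exact ⟨_, good_ind hs, Algebra.subset_adjoin, by simp⟩
  | insert θ T _ ih => ?_
  obtain ⟨B, b1, b2, b3⟩ := ih fun x hx => hT x (Finset.mem_insert_of_mem hx)
  obtain ⟨M, m1, m2⟩ := simple_of (hT θ (Finset.mem_insert_self _ _)) b2
  have le : (B : Set F) ⊆ ((aeval θ : B[X] →ₐ[B] F).range.restrictScalars k) :=
    fun x hx => ⟨C ⟨x, hx⟩, by simp⟩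
  refine ⟨_, b1.step m1 m2, b2.trans le, ?_⟩
  rw [Finset.coe_insert]
  exact Set.insert_subset ⟨X, by simp⟩ (b3.trans le)

/-- The extension `F / k` is separable. -/
def Sepx (k F : Type) [Field k] [Field F] [Algebra k F] : Prop :=
  ∀ p : ℕ, p.Prime → CharP k p → ∀ s : Finset F,
    LinearIndepOn k id (s : Set F) → LinearIndepOn k (· ^ p) (s : Set F)

theorem sep_basis (h : Sepx k F) (E : IntermediateField k F) [Algebra.EssFiniteType k E] :
    ∃ s : Finset E, IsTranscendenceBasis k ((↑) : s → E) ∧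
      Algebra.IsSeparable (IntermediateField.adjoin k (s : Set E)) E := by
  classical
  obtain _ | ⟨p, hp, hpk⟩ := CharP.exists' k
  · exact exists_isTranscendenceBasis_and_isSeparable_of_perfectField k E
  have : ExpChar k p := .prime hp.out
  refine exists_isTranscendenceBasis_and_isSeparable_of_linearIndepOn_pow_of_essFiniteType
    p hp.out fun s hs => ?_
  have h1 : LinearIndepOn k id ((s.image E.val : Finset F) : Set F) := by
    rw [Finset.coe_image]
    exact (hs.map_injOn E.val.toLinearMap Subtype.val_injective.injOn).id_image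
  have h2 := h p hp.out hpk _ h1
  rw [Finset.coe_image] at h2
  refine LinearIndepOn.of_comp E.val.toLinearMap ?_
  exact (h2.comp_of_image Subtype.val_injective.injOn).congr fun x _ => by simp

/-- **Specialisation**: finitely many elements of a separable extension of `k` lie in a subalgebra
with a homomorphism to the separably closed field `K`. -/
theorem spec (K : Type) [Field K] [Algebra k K] [IsSepClosed K] (h : Sepx k F) (T : Set F)
    (hT : T.Finite) : ∃ (A : Subalgebra k F) (_ : A →ₐ[k] K), T ⊆ A := by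
  classical
  lift T to Finset F using hT
  let E := IntermediateField.adjoin k (T : Set F)
  have : Algebra.EssFiniteType k E := (IntermediateField.essFiniteType_iff).2 ⟨T, rfl⟩
  obtain ⟨s, s1, s2⟩ := sep_basis h E
  obtain ⟨B, b1, -, b3⟩ := good_fin (K := K) s1.1 (T.preimage E.val Subtype.val_injective.injOn)
    fun θ _ => by
      have : ∀ S : Set E, S = s → IsSeparable (IntermediateField.adjoin k S) θ := by
        rintro _ rfl
        exact s2.isSeparable' θ
      exact this _ Subtype.range_coe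
  obtain ⟨φ, -⟩ := b1 1 one_ne_zero
  refine ⟨B.map E.val, φ.comp (B.equivMapOfInjective E.val Subtype.val_injective).symm.toAlgHom,
    fun x hx => ⟨⟨x, IntermediateField.subset_adjoin _ _ hx⟩, b3 ?_, rfl⟩⟩
  simpa using hx

/-- the same for points: all equations over `k` and one inequality are kept -/
theorem spec_pt (K : Type) [Field K] [Algebra k K] [IsSepClosed K] (h : Sepx k F) {ι : Type}
    [Finite ι] (a : ι → F) (q : MvPolynomial ι k) (hq : MvPolynomial.aeval a q ≠ 0) :
    ∃ b : ι → K, (∀ p : MvPolynomial ι k, MvPolynomial.aeval a p = 0 →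
      MvPolynomial.aeval b p = 0) ∧ MvPolynomial.aeval b q ≠ 0 := by
  obtain ⟨A, φ, hA⟩ := spec K h (insert (MvPolynomial.aeval a q)⁻¹ (Set.range a))
    ((Set.finite_range a).insert _)
  let a' : ι → A := fun i => ⟨a i, hA (Or.inr ⟨i, rfl⟩)⟩
  have e1 : ∀ p : MvPolynomial ι k, (MvPolynomial.aeval a' p : F) = MvPolynomial.aeval a p :=
    fun p => MvPolynomial.comp_aeval_apply (f := a') A.val p
  have e2 : ∀ p : MvPolynomial ι k, MvPolynomial.aeval (fun i => φ (a' i)) p =
      φ (MvPolynomial.aeval a' p) := fun p => (MvPolynomial.comp_aeval_apply (f := a') φ p).symm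
  refine ⟨fun i => φ (a' i), fun p hp => ?_, fun c => ?_⟩
  · rw [e2, show MvPolynomial.aeval a' p = 0 from Subtype.ext ((e1 p).trans hp), map_zero]
  · have : MvPolynomial.aeval a' q * ⟨_, hA (Or.inl rfl)⟩ = 1 :=
      Subtype.ext (by rw [Subalgebra.coe_mul, e1]; exact mul_inv_cancel₀ hq)
    have := congrArg φ this
    rw [map_mul, ← e2, c, zero_mul, map_one] at this
    exact zero_ne_one this

end good

end Vale.Agent.P011IS
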