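import Vale.Agent.P011I.Defs
import Vale.Agent.P011UH.Pol
import Vale.Agent.P011LT.Basic
import Vale.Agent.P011IS.Spec

/-!
Descent of an isomorphism with a Chevalley group to the separable closure.
-/

set_option autoImplicit false
set_option linter.all false

namespace Vale.Agent.P011IS

open Matrix Vale.Agent.P183CH Vale.Agent.P183CH.Chev Vale.Agent.P011U Vale.Agent.P011L
  Vale.Agent.P011LZ Vale.Agent.P092GV Vale.Agent.P011UH Vale.Agent.P011LT

theorem pre_equiv {Γ I I' : Type} [Group Γ] (e : I' ≃ I) (H : I → Type) [∀ i, Group (H i)]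
    [∀ i, TopologicalSpace (H i)] (R : Γ → ∀ i, H i → Prop) (h : Pre H R) :
    Pre (fun i => H (e i)) fun g i => R g (e i) := by
  obtain ⟨δ, h1, h2⟩ := h
  let ρ : (∀ i, H i) →* ∀ i, H (e i) := MonoidHom.pi fun i => Pi.evalMonoidHom H (e i)
  let ψ : (∀ i, H i) ≃* ∀ i, H (e i) :=
    { (Equiv.piCongrLeft H e).symm with map_mul' := fun _ _ => rfl }
  refine ⟨ψ.toMonoidHom.comp δ, fun g i => h1 g (e i), fun N a b => ?_⟩
  obtain ⟨W, w1, w2, rfl⟩ := h2 N a b
  refine ⟨W.comap ψ.symm.toMonoidHom,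
    w1.preimage (Homeomorph.piCongrLeft (Y := H) e).continuous, w2.comap _, ?_⟩
  ext g
  simp

theorem pts_congr {k K K' : Type} [Field k] [Field K] [Field K'] [Algebra k K] [Algebra k K']
    {m : Type} [Fintype m] [DecidableEq m] {G : Subgroup (GL m K)} {G' : Subgroup (GL m K')}
    (h : ∀ p, Van k G p ↔ Van k G' p) (L : Type) [Field L] [Algebra k L] :
    Pts k G L = Pts k G' L := by
  simp only [Pts, h]

theorem mpg_congr {k K K' : Type} [Field k] [Field K] [Field K'] [Algebra k K] [Algebra k K']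
    {m : Type} [Fintype m] [DecidableEq m] {G : Subgroup (GL m K)} {G' : Subgroup (GL m K')}
    (h : ∀ p, Van k G p ↔ Van k G' p) (H : MPG k G) : MPG k G' := by
  have e : ∀ (L : Type) [Field L] [Algebra k L], Pts k G' L = Pts k G L := fun L _ _ =>
    (pts_congr h L).symm
  let f : AG k G' ≃ AG k G :=
    { toFun := fun v => ⟨v.abv, v.nonarch, v.normalized, e v.abv.Completion ▸ v.ani⟩
      invFun := fun v => ⟨v.abv, v.nonarch, v.normalized, (e v.abv.Completion).symm ▸ v.ani⟩
      left_inv := fun _ => rfl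
      right_inv := fun _ => rfl }
  unfold MPG
  rw [e k, show (fun v : AG k G' => Pts k G' v.abv.Completion) =
    fun v : AG k G' => Pts k G v.abv.Completion from funext fun v => e _]
  exact pre_equiv f (fun v => Pts k G v.abv.Completion)
    (fun (g : Pts k G k) i h => h.1.1 = g.1.1.map (algebraMap k i.abv.Completion)) H

theorem pts_self {k Ω : Type} [Field k] [Field Ω] [Algebra k Ω] {n : ℕ}
    {G : Subgroup (GL (Fin n) Ω)} (hG : AbsSimple k G) : Pts k G Ω = G := by
  refine le_antisymm ((Subgroup.closure_le _).2 fun g hg => hG.closed g fun p hp => ?_)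
    fun g hg => Zs_le (Zs_of_mem hg)
  rw [hG.defined] at hp
  have : (vanish k G).map (MvPolynomial.map (algebraMap k Ω)) ≤
      RingHom.ker (MvPolynomial.eval fun ij : Fin n × Fin n => g.1 ij.1 ij.2) := by
    rw [Ideal.map_le_iff_le_comap]
    intro q hq
    rw [Ideal.mem_comap, RingHom.mem_ker, MvPolynomial.eval_map, ← MvPolynomial.aeval_def]
    exact hg q fun x hx => (MvPolynomial.mem_vanishingIdeal_iff.1 hq) _ ⟨x, hx, fun _ _ => rfl⟩
  exact this hp

/-- projection of the coefficients -/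
theorem proj {K Ω m : Type} [Field K] [Field Ω] [Algebra K Ω] (q : MvPolynomial (m × m) Ω) :
    ∃ p : MvPolynomial (m × m) K, ∀ (x : Matrix m m K) (c : K),
      ev Ω (x.map (algebraMap K Ω)) q = algebraMap K Ω c → ev K x p = c := by
  obtain ⟨l, hl⟩ := (Algebra.linearMap K Ω).exists_leftInverse_of_injective
    (LinearMap.ker_eq_bot.2 (algebraMap K Ω).injective)
  obtain ⟨ι, b, c, e⟩ := dec (K := K) q
  refine ⟨∑ i ∈ c.support, c i * MvPolynomial.C (l (b i)), fun x d h => ?_⟩
  have := congrArg l ((e _).symm.trans h)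
  rw [show l (algebraMap K Ω d) = d from LinearMap.congr_fun hl d, map_sum] at this
  rw [← this, map_sum]
  refine Finset.sum_congr rfl fun i _ => ?_
  rw [map_mul, show ev K (x.map (algebraMap K Ω)) (c i) = algebraMap K Ω (ev K x (c i)) from
    ev_map (Algebra.ofId K Ω) x _, ← Algebra.smul_def, map_smul, smul_eq_mul]
  exact congrArg _ ((ev K x).commutes _)

theorem ev_up {K Ω m : Type} [Field K] [Field Ω] [Algebra K Ω] (x : Matrix m m Ω)
    (p : MvPolynomial (m × m) K) :
    ev Ω x (MvPolynomial.map (algebraMap K Ω) p) = ev K x p :=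
  MvPolynomial.aeval_map_algebraMap _ _ _

theorem ev_X {K L m : Type} [Field K] [CommRing L] [Algebra K L] (x : Matrix m m L) (a b : m) :
    ev K x (.X (a, b)) = x a b := MvPolynomial.aeval_X _ _

theorem ev_sub {K L m n : Type} [Field K] [CommRing L] [Algebra K L] (x : Matrix m m L)
    (P : Matrix n n (MvPolynomial (m × m) K)) (p : MvPolynomial (n × n) K) :
    ev K x (ev K P p) = ev K (P.map (ev K x)) p := (ev_map _ _ _).symm

section

variable {k K Ω : Type} [Field k] [Field K] [Field Ω] [Algebra k K] [Algebra K Ω] [Algebra k Ω]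
  [IsScalarTower k K Ω] {n : ℕ} {G : Subgroup (GL (Fin n) Ω)} {D : Chev}

/-- An isomorphism which respects the `K`-points descends to `K`. -/
theorem desc [Infinite K] (hG : Pts k G Ω = G) (hD : SC D) (φ : D.grp Ω ≃* G) (p1 : Pol φ)
    (p2 : Pol φ.symm) (hK : ∀ g : D.grp K, ∃ M : Matrix (Fin n) (Fin n) K,
      (φ (fm D (algebraMap K Ω) g)).1.1 = M.map (algebraMap K Ω)) :
    (∀ p, Van k (Pts k G K) p ↔ Van k G p) ∧
      ∃ ψ : Pts k G K ≃* D.grp K, Form k ψ := by
  let ι := algebraMap K Ω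
  let j := GeneralLinearGroup.map (n := Fin n) ι
  have jm : ∀ g, g ∈ Pts k G K ↔ j g ∈ G := fun g =>
    mem_Pts_sub hG (IsScalarTower.toAlgHom k K Ω)
  have ji : Function.Injective j := fun a b c =>
    Units.ext (Matrix.map_injective ι.injective (congrArg Units.val c))
  have h1 : ∀ g : D.grp K, ∃ a : Pts k G K, j a = φ (fm D ι g) := fun g => by
    obtain ⟨M, hM⟩ := hK g
    have d : M.det ≠ 0 := fun c => (φ (fm D ι g)).1.det_ne_zero (by
      rw [hM, ← RingHom.mapMatrix_apply, ← RingHom.map_det, c, map_zero])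
    have e : j (GeneralLinearGroup.mkOfDetNeZero M d) = φ (fm D ι g) := Units.ext hM.symm
    exact ⟨⟨_, (jm _).2 (e ▸ (φ _).2)⟩, e⟩
  choose a ha using h1
  let A : D.grp K →* Pts k G K := MonoidHom.mk' a fun x y => Subtype.ext (ji (by
    rw [ha, Subgroup.coe_mul, map_mul, map_mul, map_mul, ha, ha, Subgroup.coe_mul]))
  have hav : ∀ g, (φ (fm D ι g)).1.1 = (a g).1.1.map ι := fun g =>
    (congrArg Units.val (ha g)).symm
  choose q1 hq1 using p1
  choose q2 hq2 using p2
  choose r1 hr1 using fun i j => proj (K := K) (q1 i j)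
  choose r2 hr2 using fun i j => proj (K := K) (q2 i j)
  have s1 : ∀ g : D.grp K, (of r1).map (ev K g.1.1) = (a g).1.1 := fun g => by
    ext i l
    exact hr1 i l _ _ (((ev_eq _ _).trans (hq1 i l (fm D ι g)).symm).trans
      (congrFun₂ (hav g) i l))
  have s2 : ∀ g : D.grp K, (of r2).map (ev K (a g).1.1) = g.1.1 := fun g => by
    ext i l
    refine hr2 i l _ _ ?_
    rw [← hav, ev_eq, ← hq2, MulEquiv.symm_apply_apply]
    rfl
  have t1 : ∀ h : D.grp Ω, (φ h).1.1 = (of r1).map (ev K h.1.1) := fun h => by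
    ext i l
    have := (zc_grp (K := K) h).van (q := q1 i l - MvPolynomial.map ι (r1 i l)) fun g => by
      rw [map_sub, ev_up, ev_eq, sub_eq_zero]
      refine (hq1 i l (fm D ι g)).symm.trans ((congrFun₂ (hav g) i l).trans ?_)
      rw [← s1]
      exact (ev_map (Algebra.ofId K Ω) _ _).symm
    rw [map_sub, ev_up, ev_eq, ← hq1, sub_eq_zero] at this
    exact this
  have t2 : ∀ h : D.grp Ω, (of r2).map (ev K (φ h).1.1) = h.1.1 := fun h => by
    ext i l
    have := zc_grp (K := K) h (ev K (of r1) (r2 i l) - .X (i, l)) fun g => by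
      rw [map_sub, ev_sub, s1, sub_eq_zero]
      exact (congrFun₂ (s2 g) i l).trans (ev_X _ i l).symm
    rw [map_sub, ev_sub, ← t1, sub_eq_zero] at this
    exact this.trans (ev_X _ i l)
  have bij : Function.Bijective A := by
    refine ⟨fun x y c => Subtype.ext (Units.ext ?_), fun g => ?_⟩
    · rw [← s2, ← s2, show a x = a y from c]
    obtain ⟨h, hh⟩ := φ.surjective ⟨_, (jm _).1 g.2⟩
    have e : h.1.1 = ((of r2).map (ev K g.1.1)).map ι := by
      rw [← t2, hh]
      ext i l
      exact ev_map (Algebra.ofId K Ω) _ _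
    obtain ⟨x, hx⟩ := (zc_iff (K := K) (F := K) (M := (of r2).map (ev K g.1.1)) hD).1
      fun p hp => ι.injective (by
        rw [map_zero, ← zc_grp (K := K) h p hp, e]
        exact (ev_map (Algebra.ofId K Ω) _ _).symm)
    refine ⟨x, Subtype.ext (ji ((ha x).trans ?_))⟩
    rw [show fm D ι x = h from Subtype.ext (Units.ext (by rw [fm_val, hx, e])), hh]
  have van : ∀ p, Van k (Pts k G K) p ↔ Van k G p := fun p => by
    have u : ∀ {L : Type} [Field L] [Algebra k L] [Algebra K L] [IsScalarTower k K L]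
        (x : Matrix (Fin n) (Fin n) L), ev K x (MvPolynomial.map (algebraMap k K) p) =
          MvPolynomial.aeval (fun e => x e.1 e.2) p :=
      fun x => MvPolynomial.aeval_map_algebraMap _ _ _
    refine ⟨fun h g hg => ?_, fun h g hg => ι.injective ?_⟩
    · obtain ⟨y, hy⟩ := φ.surjective ⟨g, hg⟩
      have := zc_grp (K := K) y (ev K (of r1) (MvPolynomial.map (algebraMap k K) p)) fun g => by
        rw [ev_sub, s1, u]
        exact h _ (a g).2
      rwa [ev_sub, ← t1, hy, u] at this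
    · rw [map_zero, ← h _ ((jm g).1 hg), ← u, ← u]
      exact (ev_map (Algebra.ofId K Ω) _ _).symm
  let ψ := MulEquiv.ofBijective A bij
  refine ⟨van, ψ.symm, pts_congr van K, fun i l => ⟨r2 i l, fun g => ?_⟩,
    fun i l => ⟨r1 i l, fun g => ?_⟩⟩
  · obtain ⟨x, rfl⟩ := ψ.surjective g
    rw [MulEquiv.symm_apply_apply, ← ev_eq]
    exact (congrFun₂ (s2 x) i l).symm
  · rw [← ev_eq]
    exact (congrFun₂ (s1 g) i l).symm

/-- it is enough to look at the simple root elements -/
theorem rat_gen (π : D.grp Ω →* G) (hK : ∀ (i : Fin D.r) (t : K),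
    (∃ M : Matrix (Fin n) (Fin n) K,
      (π ((GG D Ω).x (D.α i) (algebraMap K Ω t))).1.1 = M.map (algebraMap K Ω)) ∧
    ∃ M : Matrix (Fin n) (Fin n) K,
      (π ((GG D Ω).x (-D.α i) (algebraMap K Ω t))).1.1 = M.map (algebraMap K Ω)) (g : D.grp K) :
    ∃ M : Matrix (Fin n) (Fin n) K,
      (π (fm D (algebraMap K Ω) g)).1.1 = M.map (algebraMap K Ω) := by
  let j := GeneralLinearGroup.map (n := Fin n) (algebraMap K Ω)
  have h1 : ∀ (x : GL (Fin n) Ω) (M : Matrix (Fin n) (Fin n) K),
      x.1 = M.map (algebraMap K Ω) → x ∈ j.range := fun x M hM =>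
    ⟨GeneralLinearGroup.mkOfDetNeZero M fun c => x.det_ne_zero (by
      rw [hM, ← RingHom.mapMatrix_apply, ← RingHom.map_det, c, map_zero]), Units.ext hM.symm⟩
  have hg : g ∈ _ := (GG_ok (D := D) (k := K)).gen ▸ Subgroup.mem_top g
  have : g ∈ j.range.comap (G.subtype.comp (π.comp (fm D (algebraMap K Ω)))) := by
    refine (Subgroup.closure_le _).2 ?_ hg
    rintro _ ⟨i, t, rfl | rfl⟩
    · obtain ⟨M, hM⟩ := (hK i t).1
      exact h1 _ M (by rw [← hM, ← fm_x]; rfl)
    · obtain ⟨M, hM⟩ := (hK i t).2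
      exact h1 _ M (by rw [← hM, ← fm_x]; rfl)
  obtain ⟨y, hy⟩ := this
  exact ⟨y.1, (congrArg Units.val hy).symm⟩

/-- **The last step.** -/
theorem fin (q1 : Q1) [IsSepClosure k K] (hk : Glob k) (hG : AbsSimple k G) (hD : SC D)
    (φ : D.grp Ω ≃* G) (p1 : Pol φ) (p2 : Pol φ.symm)
    (hK : ∀ g : D.grp K, ∃ M : Matrix (Fin n) (Fin n) K,
      (φ (fm D (algebraMap K Ω) g)).1.1 = M.map (algebraMap K Ω)) : MPG k G := by
  have := IsSepClosure.sep_closed k (K := K)
  have := inf_of K
  obtain ⟨van, ψ, hψ⟩ := desc (pts_self hG) hD φ p1 p2 hK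
  exact mpg_congr van (q1 k K hk D hD n _ ψ hψ)

end

end Vale.Agent.P011IS
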