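import Vale.Agent.P011I.IF
import Vale.Agent.P011IS.Fin
import Vale.Agent.P011IT.Pts

/-!
The rows FB and MPT.
-/

set_option autoImplicit false
set_option linter.all false

namespace Vale.Agent.P011IS

open Matrix Vale.Agent.P183CH Vale.Agent.P183CH.Chev Vale.Agent.P011U Vale.Agent.P011L
  Vale.Agent.P011UH Vale.Agent.P011LT

/-- **FB** -/
theorem fb : P011I.FB := by
  intro k K Ω _ _ _ _ _ _ _ _ n G hG D hD φ P hP p2
  have h0 := P011IT.Pts_self hG
  have e : P092AG.pts K G = Pts k G K := Subgroup.ext fun g =>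
    (mem_Pts_sub h0 (IsScalarTower.toAlgHom k K Ω)).symm
  rw [e]
  refine (desc h0 hD φ (fun i j => ⟨MvPolynomial.map (algebraMap K Ω) (P i j), fun g => ?_⟩) p2
    fun g => ⟨P.map (ev K g.1.1), ?_⟩).symm
  · rw [hP, ← ev_eq, ev_up]
    rfl
  · rw [hP, fm_val]
    ext i j
    exact ev_map (Algebra.ofId K Ω) _ _

/-- **MPT** -/
theorem mpt : P011I.MPT := fun _ _ _ _ _ _ _ _ _ _ _ h H => mpg_congr h H

end Vale.Agent.P011IS
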