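import Vale.Agent.P011IS.Topr
import Vale.Agent.P011IR.Main
import Vale.Agent.P011IR.One
import Vale.Agent.P011IA.Asm
import Vale.Agent.P011IL.Cm
import Vale.Agent.P011IH.Cen

/-!
The row RK1 from the three last rows.
-/

set_option autoImplicit false
set_option linter.all false

namespace Vale.Agent.P011IS

open Vale.Agent.P011IR

theorem rk1_of (exr : EXR) (cur : CUR) (sl2 : SL2) : P011I.RK1 :=
  topr P011IR.red exr (P011IA.asm P011IR.one) cur sl2 P011IL.cm P011IH.cen

end Vale.Agent.P011IS
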