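import Vale.Agent.P011IS.Rk0
import Vale.Agent.P011IN.Main
import Vale.Agent.P011IT.Pts
import Vale.Agent.P011IR.Sl2
import Vale.Agent.P011IC3.Main

/-!
The rows EXR and RK1.
-/

set_option autoImplicit false
set_option linter.all false

namespace Vale.Agent.P011IS

open Vale.Agent.P011IR Vale.Agent.P092AG Vale.Agent.P092A2

/-- **EXR** -/
theorem exr : EXR := by
  classical
  intro F Ω _ _ _ _ _ _ _ _ n G hG hM a b
  obtain ⟨L, _, _, _, _, _, _, -, -, h, -⟩ := P011IN.ext F Ω {a, b}
  obtain ⟨h1, -, h2⟩ := red L Ω n G (P011IT.abs_base hG) hM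
  refine ⟨L, inferInstance, inferInstance, algebraMap F L, algebraMap L Ω, pts L G, _,
    fun x => (IsScalarTower.algebraMap_apply F L Ω x).symm, h a (by simp), h b (by simp), h1,
    h2.trans (red F Ω n G hG hM).2.2.symm, fun g hg => hG.closed (io L Ω n g) fun p hp => ?_⟩
  refine (Ideal.span_le.2 ?_ : _ ≤ RingHom.ker (ev (io L Ω n g).1)) (hG.defd hp)
  rintro _ ⟨c, q, rfl⟩
  have := ev_map (R := Ω) g.1 (MvPolynomial.map (algebraMap F L) q)
  rw [hg q (P092A1.mem_van_pts c), map_zero, MvPolynomial.map_map,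
    ← IsScalarTower.algebraMap_eq] at this
  exact this

/-- **RK1** -/
theorem rk1 : P011I.RK1 := rk1_of exr P011IC3.cur P011IR.sl2

end Vale.Agent.P011IS
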