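import Vale.Agent.P011IR.IF

/-!
The row TOPR: the pinning of a split group from the linear package.
-/

set_option autoImplicit false
set_option linter.all false

namespace Vale.Agent.P011IS

open Matrix Vale.Agent.P183CH Vale.Agent.P183CH.Chev Vale.Agent.P092AG Vale.Agent.P092GP
  Vale.Agent.P011I Vale.Agent.P011IR Vale.Agent.P092A2

section

variable {k Γ : Type} [Field k] [Group Γ] {L : LD k Γ}

theorem cv_zero {γ : L.R.Q} {P : Mt L.n (Polynomial k)} {x : k → Γ} (c : Cv L γ P x) : x 0 = 1 :=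
  left_eq_mul.1 ((congrArg x (add_zero 0)).symm.trans (c.add 0 0))

theorem cv_inj {γ : L.R.Q} {P : Mt L.n (Polynomial k)} {x : k → Γ} (c : Cv L γ P x) :
    Function.Injective x := fun s t e => sub_eq_zero.1 (c.inj _ (mul_right_cancel (b := x t) (by
  rw [← c.add, sub_add_cancel, one_mul, e])))

variable {S : Pn k L.n L.R} {x y : Fin L.R.r → k → Γ} {h : Fin L.R.r → kˣ → Γ}

theorem wt_of (pk : Pk L S x y h) {a b : Fin L.n} {m : ℕ} {γ : L.R.Q}
    (e : L.wt a = L.wt b + (L.N * m) • γ) : S.wt a = S.wt b + m • γ ᵥ* L.R.A := by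
  funext j
  refine mul_left_cancel₀ (Nat.cast_ne_zero.2 pk.ok.npos.ne' : (L.N : ℤ) ≠ 0) ?_
  have h1 := pk.mu j a
  have h2 := pk.mu j b
  rw [e, RS.pr, add_vecMul, smul_vecMul] at h1
  simp only [Pn.wt, Pi.add_apply, Pi.smul_apply, nsmul_eq_mul, RS.pr, Nat.cast_mul] at h1 h2 ⊢
  rw [h1, mul_add, h2, mul_assoc]
  rfl

theorem gp_eq (pk : Pk L S x y h) (ι : Γ →* GL (Fin L.n) k) (hι : ∀ g, (ι g).1 = L.ρ g) :
    S.Gp = L.Gp.map ι := by
  rw [← pk.ok.GJ_univ]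
  refine le_antisymm ((Subgroup.closure_le _).2 ?_) (Subgroup.map_le_iff_le_comap.2
    (LD.GJ_le (fun j _ u hu => ?_) fun j _ u hu => ?_))
  · rintro g ⟨i, t, e | e⟩
    · exact ⟨x i t, LD.X_le_GJ' (Set.mem_univ i) (((pk.cx i).mem _).2 ⟨t, rfl⟩),
        Units.ext ((hι _).trans (((pk.cx i).ev t).trans e.symm))⟩
    · exact ⟨y i t, LD.X_le_GJ'' (Set.mem_univ i) (((pk.cy i).mem _).2 ⟨t, rfl⟩),
        Units.ext ((hι _).trans (((pk.cy i).ev t).trans e.symm))⟩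
  · obtain ⟨t, rfl⟩ := ((pk.cx j).mem u).1 hu
    exact Subgroup.subset_closure ⟨j, t, Or.inl ((hι _).trans ((pk.cx j).ev t))⟩
  · obtain ⟨t, rfl⟩ := ((pk.cy j).mem u).1 hu
    exact Subgroup.subset_closure ⟨j, t, Or.inr ((hι _).trans ((pk.cy j).ev t))⟩

theorem ok_of [Infinite k] (cm : CM) (cen : CEN) (pk : Pk L S x y h) (ι : Γ →* GL (Fin L.n) k)
    (hι : ∀ g, (ι g).1 = L.ρ g)
    (fd : ∀ N : Subgroup (GL (Fin L.n) k), N ≤ S.Gp → (∀ g ∈ S.Gp, ∀ z ∈ N, g * z * g⁻¹ ∈ N) →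
      (N : Set (GL (Fin L.n) k)).Finite ∨
        van (N : Set (GL (Fin L.n) k)) ≤ van (S.Gp : Set (GL (Fin L.n) k))) : S.Ok := by
  have ex : ∀ i t, S.x i t = L.ρ (x i t) := fun i t => ((pk.cx i).ev t).symm
  have ey : ∀ i t, S.y i t = L.ρ (y i t) := fun i t => ((pk.cy i).ev t).symm
  have ea : ∀ i, L.R.α i ᵥ* L.R.A = L.R.A i := fun i => funext fun j => RS.pr_α _ i j
  refine ⟨pk.ok.root, fun i => ?_, fun i => ?_, fun i s t => ?_, fun i s t => ?_,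
    fun i a b m c => ?_, fun i a b m c => ?_, fun i => (pk.cx i).one, fun i => (pk.cy i).one,
    fun i t s u c => ?_, fun i j c t s => ?_, fun g hg => ?_, fd, fun g hg c => ?_⟩
  · rw [ex, cv_zero (pk.cx i), map_one]
  · rw [ey, cv_zero (pk.cy i), map_one]
  · rw [ex, ex, ex, (pk.cx i).add, map_mul]
  · rw [ey, ey, ey, (pk.cy i).add, map_mul]
  · rw [wt_of pk ((pk.cx i).deg a b m c), ea]
  · rw [wt_of pk ((pk.cy i).deg a b m c), neg_vecMul, ea, smul_neg, sub_eq_add_neg]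
  · rw [ex, ex, ey, ey, ← pk.hh, ← map_mul, ← map_mul, ← map_mul, pk.xy i t s u c]
  · rw [ex, ey, ← map_mul, ← map_mul, cm k Γ L pk.ok i j c _ (((pk.cx i).mem _).2 ⟨t, rfl⟩) _
      (((pk.cy j).mem _).2 ⟨s, rfl⟩)]
  · obtain ⟨g, -, rfl⟩ := (gp_eq pk ι hι).le hg
    rw [hι, pk.ok.det]
  · obtain ⟨g, a, rfl⟩ := (gp_eq pk ι hι).le hg
    rw [hι] at c ⊢
    exact cen k Γ L S x y h pk g a c

end

/-- subgroups normalised by a dense subgroup -/
theorem fd_of {n : ℕ} {k : Type} [NontriviallyNormedField k] {G P N : Subgroup (GL (Fin n) k)}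
    (hd : ∀ g ∈ G, (g : Mt n k).det = 1) (hc : ZCl (G : Set (GL (Fin n) k))) (hs : Simp G)
    (h1 : P ≤ G) (h2 : van (P : Set (GL (Fin n) k)) ≤ van (G : Set (GL (Fin n) k))) (h3 : N ≤ P)
    (h4 : ∀ g ∈ P, ∀ z ∈ N, g * z * g⁻¹ ∈ N) : (N : Set (GL (Fin n) k)).Finite ∨
      van (N : Set (GL (Fin n) k)) ≤ van (P : Set (GL (Fin n) k)) := by
  refine (hs.norm (zgrp N fun g hg => hd g (h1 (h3 hg))) (zcl_subset hc (h3.trans h1))
    (.of_forall fun g hg x hx => ?_)).imp (·.subset subset_zcl)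
      fun e => van_zcl.ge.trans (e.trans (van_anti h1))
  refine map_zcl (PF.mulE (PF.mulE PF.entry (pf_c x)) PF.adj) (fun s hs => ⟨s * x * s⁻¹,
    map_zcl (PF.mulE (PF.mulE (pf_c s) PF.entry) (pf_c (s⁻¹ : GL (Fin n) k)))
      (fun t ht => ⟨_, subset_zcl (h4 s hs t ht), rfl⟩) hx rfl, ?_⟩)
    (show g ∈ zcl (P : Set (GL (Fin n) k)) from fun p hp => h2 hp g hg) ?_
  · rw [adj_eq (hd s (h1 hs))]; rfl
  · rw [adj_eq (hd g hg)]; rfl

/-- **TOPR** -/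
theorem topr : TOPR := by
  intro red exr asm cur sl2 cm cen F Ω _ _ _ _ _ _ _ _ n G hG hM hY
  obtain ⟨H, -, eY⟩ := red F Ω n G hG hM
  obtain ⟨R, N, m, wt, τ, dg, e, x0, l, sp⟩ := asm n F Ω _ _ H (exr F Ω n G hG hM) (eY ▸ hY)
  obtain ⟨S, x, y, h, pk⟩ := sl2 F _ _ sp.ok (cur F _ _ sp)
  have e1 := gp_eq pk (pts F G).subtype fun _ => rfl
  have h1 : S.Gp ≤ pts F G := e1 ▸ Subgroup.map_subtype_le _
  have h2 : van (S.Gp : Set (GL (Fin n) F)) ≤ van (pts F G : Set (GL (Fin n) F)) := by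
    refine (H.simp.norm S.Gp h1 (.of_forall fun g hg z hz => ?_)).resolve_left fun c => ?_
    · obtain ⟨z, a, rfl⟩ := e1.le hz
      exact e1.ge ⟨_, pk.ok.normal_Gp.conj_mem z a ⟨g, hg⟩, rfl⟩
    · have i : Fin R.r := ⟨0, pk.ok.root.pos⟩
      refine Set.infinite_of_injective_forall_mem (f := fun t => (x i t).1)
        (Subtype.val_injective.comp (cv_inj (pk.cx i))) (fun t => ?_) c
      exact Subgroup.subset_closure ⟨i, t, Or.inl ((pk.cx i).ev t)⟩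
  exact ⟨R, S, ok_of cm cen pk (pts F G).subtype (fun _ => rfl) fun N a b =>
    fd_of H.nice.det1 H.nice.closed H.simp h1 h2 a b, le_antisymm h2 (van_anti h1)⟩

end Vale.Agent.P011IS
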